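import Vale.Agent.P004X.P004E.H185.Plug
import Vale.Agent.P004X.P004E.H185.N0

/-!
# `StMert`, `StN0` for `y² = x³ - A x`
-/

namespace P004E

open P004.QN

/-- **`StN0`** for `y² = x³ - A x`. -/
theorem pfN0Q {A : ℤ} (hA : A ≠ 0) : @StN0 (crvQ hA) := @pfN0 (crvQ hA) (pfMert hA)

end P004E
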