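import Vale.Agent.P004E.H185.Mt
import Vale.Agent.P004X.P004E.H185.Mert1
import Vale.Agent.P004X.P004E.H628.N2

/-!
# `StMert` for `y² = x³ - A x`
-/

set_option linter.all false

open Finset Real Filter Topology

namespace P004E.H185

open P004.QN
open P004G (RQ Crv)

variable (A : ℤ)

/-- the determinant character of `ψ^k` -/
noncomputable def ek (p : ℕ) : ℝ := if p ∣ 2 * RQ A then 0 else if p % 4 = 1 then 1 else -1

variable {A}

lemma not_two {p : ℕ} (hp : p.Prime) (hb : ¬ p ∣ 2 * RQ A) : p % 4 = 1 ∨ p % 4 = 3 := by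
  have h2 : p ≠ 2 := by rintro rfl; exact hb (dvd_mul_right _ _)
  rcases hp.eq_two_or_odd with h | h
  · exact absurd h h2
  · omega

lemma not_RQ {p : ℕ} (hb : ¬ p ∣ 2 * RQ A) : ¬ p ∣ RQ A := fun h => hb (dvd_mul_of_dvd_right h 2)

lemma bad_zero {k : ℕ} (hk : k = 2 ∨ k = 4) {p : ℕ} (hp : p.Prime) (hb : p ∣ 2 * RQ A) :
    fk A k p = 0 := by
  have := fk_bad A hp hb (k := k) (by omega) 0
  simpa using this

lemma inert_zero {k : ℕ} {p : ℕ} (hp : p.Prime) (hb : ¬ p ∣ 2 * RQ A) (h3 : p % 4 = 3) :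
    fk A k p = 0 := by
  haveI : Fact p.Prime := ⟨hp⟩
  exact (fk_inert A h3 (not_RQ hb) k).1

lemma fk_abs_p {k : ℕ} (hk : k = 2 ∨ k = 4) {p : ℕ} (hp : p.Prime) : |fk A k p| ≤ 2 := by
  haveI : Fact p.Prime := ⟨hp⟩
  by_cases hb : p ∣ 2 * RQ A
  · rw [bad_zero hk hp hb]; norm_num
  rcases not_two hp hb with h | h
  · obtain ⟨ω, h1, h2⟩ := fk_split A h (not_RQ hb)
    rw [(h2 k).1, abs_mul, abs_two]
    have := Complex.abs_re_le_norm (ω ^ k)
    rw [norm_pow, h1, one_pow] at this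
    linarith
  · rw [inert_zero hp hb h]; norm_num

lemma deg2_fk {k : ℕ} (hk : k = 2 ∨ k = 4) : Deg2 (fk A k) (ek A) where
  zero := fk_zero A k
  one := fk_one A k
  mul := fun m n h => fk_mul A k h
  rec2 := fun p j hp => by
    haveI : Fact p.Prime := ⟨hp⟩
    unfold ek
    by_cases hb : p ∣ 2 * RQ A
    · rw [if_pos hb, fk_bad A hp hb (by omega) (j + 1), fk_bad A hp hb (by omega) j]; ring
    rw [if_neg hb]
    rcases not_two hp hb with h | h
    · obtain ⟨ω, h1, h2⟩ := fk_split A h (not_RQ hb)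
      rw [if_pos h, (h2 k).2 j]; ring
    · rw [if_neg (by omega), inert_zero hp hb h]
      obtain ⟨i, rfl⟩ : ∃ i, k = 2 * i := by
        rcases hk with rfl | rfl
        · exact ⟨1, rfl⟩
        · exact ⟨2, rfl⟩
      rw [(fk_inert A h (not_RQ hb) i).2 j]; ring
  fp := fun p hp => fk_abs_p hk hp
  ep := fun p hp => by unfold ek; split_ifs <;> norm_num
  f2 := bad_zero hk Nat.prime_two (dvd_mul_right _ _)
  e2 := by unfold ek; rw [if_pos (dvd_mul_right _ _)]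
  le := fun n => fk_le A k n

lemma S_fk {k : ℕ} (hk : k = 2 ∨ k = 4) :
    ∃ B : ℝ, 0 ≤ B ∧ ∀ n : ℕ, |S (fk A k) n| ≤ B * (n : ℝ) ^ (3 / 4 : ℝ) := by
  obtain ⟨C, hC, h⟩ := fk_sum A hk
  refine ⟨C, by linarith, fun n => ?_⟩
  refine (h n).trans ?_
  apply mul_le_mul_of_nonneg_left _ (by linarith)
  rcases Nat.eq_zero_or_pos n with rfl | hn
  · simp
  · rw [Real.sqrt_eq_rpow]
    exact Real.rpow_le_rpow_of_exponent_le (by exact_mod_cast hn) (by norm_num)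

lemma pos341 {p : ℕ} (hp : p.Prime) : 0 ≤ 3 * chi0 p + 3 * chi p + 4 * fk A 2 p + fk A 4 p := by
  haveI : Fact p.Prime := ⟨hp⟩
  have h0 : 0 ≤ chi0 p + chi p := by
    rw [chi_eq]; unfold chi0
    split_ifs <;> first | omega | norm_num
  by_cases hb : p ∣ 2 * RQ A
  · rw [bad_zero (Or.inl rfl) hp hb, bad_zero (Or.inr rfl) hp hb]; linarith
  rcases not_two hp hb with h | h
  · obtain ⟨ω, h1, h2⟩ := fk_split A h (not_RQ hb)
    rw [(h2 2).1, (h2 4).1]
    have hc0 : chi0 p = 1 := by unfold chi0; rw [if_pos (by omega)]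
    have hc : chi p = 1 := by rw [chi_eq, if_neg (by omega), if_pos h]
    rw [hc0, hc]
    have h3 : (ω ^ 2).re ^ 2 + (ω ^ 2).im ^ 2 = 1 := by
      have := Complex.sq_norm (ω ^ 2)
      rw [norm_pow, h1, Complex.normSq_apply] at this
      nlinarith
    have h4 : (ω ^ 4).re = (ω ^ 2).re ^ 2 - (ω ^ 2).im ^ 2 := by
      rw [show ω ^ 4 = ω ^ 2 * ω ^ 2 by ring, Complex.mul_re]; ring
    rw [h4]
    nlinarith [sq_nonneg ((ω ^ 2).re + 1)]
  · rw [inert_zero hp hb h, inert_zero hp hb h]; linarith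

/-- Mertens for `χ₄ + f₂` over all primes. -/
theorem mertens_fk (A : ℤ) : ∃ C : ℝ, ∀ N : ℕ,
    |∑ p ∈ pr N, (chi p + fk A 2 p) * Real.log p / p| ≤ C := by
  obtain ⟨B2, hB2, hS2⟩ := S_fk (A := A) (Or.inl rfl)
  obtain ⟨B4, hB4, hS4⟩ := S_fk (A := A) (Or.inr rfl)
  obtain ⟨L2, hL2⟩ := T_lim hB2 hS2
  obtain ⟨L4, hL4⟩ := T_lim hB4 hS4
  have hne : L2 ≠ 0 := nonvanish (deg2_fk (A := A) (Or.inl rfl)) (deg2_fk (A := A) (Or.inr rfl))
    (fun p hp => pos341 hp) (by positivity) (by positivity) hL2 hL4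
  obtain ⟨C2, h2⟩ := (deg2_fk (A := A) (Or.inl rfl)).mertens (by positivity) hL2
  obtain ⟨C1, h1⟩ := deg2_chi.mertens (by norm_num) chi_L
  refine ⟨C1 / |π / 4| + C2 / |L2|, fun N => ?_⟩
  have e1 := h1 N
  have e2 := h2 N
  rw [abs_mul, mul_comm, ← le_div_iff₀ (by positivity)] at e1 e2
  have e3 : ∑ p ∈ pr N, (chi p + fk A 2 p) * Real.log p / p =
      ∑ p ∈ pr N, chi p * Real.log p / p + ∑ p ∈ pr N, fk A 2 p * Real.log p / p := by
    rw [← Finset.sum_add_distrib]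
    exact Finset.sum_congr rfl fun p _ => by ring
  rw [e3]
  exact (abs_add_le _ _).trans (add_le_add e1 e2)

/-- `lam p² - 1 = χ₄(p) + f₂(p)` at the good primes -/
lemma lam_sq (hA : A ≠ 0) {p : ℕ} (hp : p.Prime) (hb : ¬ p ∣ 2 * RQ A) :
    (@P004G.lam (crvQ hA) p) ^ 2 - 1 = chi p + fk A 2 p := by
  haveI : Fact p.Prime := ⟨hp⟩
  have h0 : @P004G.lam (crvQ hA) p = fk A 1 p := (fk_one_eq A p).symm
  rw [h0]
  rcases not_two hp hb with h | h
  · obtain ⟨ω, h1, h2⟩ := fk_split A h (not_RQ hb)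
    rw [(h2 1).1, (h2 2).1]
    have hc : chi p = 1 := by rw [chi_eq, if_neg (by omega), if_pos h]
    have h3 : ω.re ^ 2 + ω.im ^ 2 = 1 := by
      have := Complex.sq_norm ω
      rw [h1, Complex.normSq_apply] at this
      nlinarith
    have h4 : (ω ^ 2).re = ω.re ^ 2 - ω.im ^ 2 := by
      rw [sq, Complex.mul_re]; ring
    rw [hc, h4, pow_one]
    nlinarith
  · have hc : chi p = -1 := by rw [chi_eq, if_neg (by omega), if_neg (by omega)]
    rw [inert_zero hp hb h, inert_zero hp hb h, hc]; ring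

end P004E.H185

namespace P004E

open P004.QN P004E.H185
open P004G (RQ Crv lam bd)

/-- **`StMert`** for `y² = x³ - A x`. -/
theorem pfMert {A : ℤ} (hA : A ≠ 0) : @StMert (crvQ hA) := by
  letI : Crv := crvQ hA
  obtain ⟨C, hC⟩ := mertens_fk A
  set K : ℝ := ∑ p ∈ bd.primeFactors, |(chi p + fk A 2 p) * Real.log p / p| with hK
  have hK0 : 0 ≤ K := Finset.sum_nonneg fun _ _ => abs_nonneg _
  have hC0 : 0 ≤ C := (abs_nonneg _).trans (hC 0)
  refine ⟨C + K + 1, by linarith, fun x hx => ?_⟩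
  have h1 : ∑ p ∈ gp x, (lam p ^ 2 - 1) * Real.log p / p =
      ∑ p ∈ gp x, (chi p + fk A 2 p) * Real.log p / p := by
    apply Finset.sum_congr rfl
    intro p hp
    unfold gp at hp
    obtain ⟨_, h2, h3⟩ := Finset.mem_filter.1 hp
    rw [lam_sq hA h2 h3]
  rw [h1]
  have h2 := gp_diff (fun p => (chi p + fk A 2 p) * Real.log p / p) x
  have h3 := hC ⌊x⌋₊
  have h4 := abs_add_le (∑ p ∈ gp x, (chi p + fk A 2 p) * Real.log p / p -
    ∑ p ∈ Mer.pr ⌊x⌋₊, (chi p + fk A 2 p) * Real.log p / p)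
    (∑ p ∈ Mer.pr ⌊x⌋₊, (chi p + fk A 2 p) * Real.log p / p)
  rw [sub_add_cancel] at h4
  have h5 : ∑ p ∈ Mer.pr ⌊x⌋₊, (chi p + fk A 2 p) * Real.log p / p =
    ∑ p ∈ pr ⌊x⌋₊, (chi p + fk A 2 p) * Real.log p / p := rfl
  rw [h5] at h4 h2
  linarith

end P004E
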